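import Vale.Agent.P199.MathlibUsed
import Vale.Agent.P199.Bdl.B1

/-- `D` is algebraic over the central subfield `k`, generated as a unital `k`-algebra by the two
elements `x` and `y`, and infinite-dimensional over `k`. -/
def Vale.Agent.Results.P199.KuroshDisproof.Counterexample (k D : Type) [Field k] [DivisionRing D]
    [Algebra k D] (x y : D) : Prop :=
  (∀ a : D, IsAlgebraic k a) ∧ Algebra.adjoin k {x, y} = ⊤ ∧ ¬ FiniteDimensional k D

/-- Kurosh's problem for division rings has a negative answer: there is a division ring `D`,
algebraic over its center, generated over its center by two elements `x, y` and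
infinite-dimensional over its center; the same holds over a countable central subfield `k` of
characteristic zero. -/
theorem Vale.Agent.Results.P199.KuroshDisproof.result :
    ∃ (k D : Type) (_ : Field k) (_ : CharZero k) (_ : Countable k) (_ : DivisionRing D)
      (_ : Algebra k D) (x y : D),
      Counterexample k D x y ∧ Counterexample (Subring.center D) D x y := by
  obtain ⟨k, D, i1, i2, i3, i4, i5, x, y, h1, h2, h3⟩ := P199H.kurosh_main
  exact ⟨k, D, i1, i2, i3, i4, i5, x, y, ⟨h1, h2, h3⟩,
    P199H.not_finite_center' h1 {x, y} (Set.toFinite _) h2 h3⟩
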